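import Vale.Agent.P092.H237.Rp.Sl2

/-!
P092, project RP, block [RP-P5] (helper237), part 3: `sl_2`-triples in a Lie algebra.
-/

set_option linter.all false

open Module Finset

namespace Vale.Agent.P092.H237.Rp

open Vale.Agent.P092.H213.Rp

section alg

variable {k L : Type} [Field k] [CharZero k] [LieRing L] [LieAlgebra k L] [Module.Finite k L]

theorem mem_egs {h : L} {i : ℤ} {v : L} : v ∈ egs k h i ↔ ⁅h, v⁆ = (i : k) • v := by
  unfold egs
  rw [Module.End.mem_eigenspace_iff]; rfl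

theorem egs_lie {h : L} {i j : ℤ} {x y : L} (hx : x ∈ egs k h i) (hy : y ∈ egs k h j) :
    ⁅x, y⁆ ∈ egs k h (i + j) := by
  rw [mem_egs] at *
  rw [leibniz_lie, hx, hy, smul_lie, lie_smul, ← add_smul]
  push_cast; rfl

variable (k) in
/-- only finitely many eigenvalues -/
theorem egs_fin (h : L) : ∃ M : ℕ, ∀ i : ℤ, egs k h i ≠ ⊥ → |i| < M := by
  have h1 := Module.End.finite_hasEigenvalue (LieAlgebra.ad k L h)
  have h2 : {i : ℤ | egs k h i ≠ ⊥}.Finite := by
    refine Set.Finite.of_finite_image (f := fun i : ℤ => (i : k)) (h1.subset ?_) ?_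
    · rintro _ ⟨i, hi, rfl⟩
      exact hi
    · exact fun i _ j _ hij => Int.cast_injective hij
  obtain ⟨M, hM⟩ := (h2.image fun i => |i|).bddAbove
  refine ⟨(M + 1).toNat, fun i hi => ?_⟩
  have := hM ⟨i, hi, rfl⟩
  simp only at this
  omega

/-- induction on the grading -/
theorem spl_ind {h : L} (hs : Spl k h) {p : L → Prop} (h0 : p 0) (hadd : ∀ x y, p x → p y → p (x + y))
    (h1 : ∀ i : ℤ, ∀ x ∈ egs k h i, p x) (x : L) : p x := by
  have hx : x ∈ ⨆ i : ℤ, egs k h i := by rw [hs]; trivial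
  exact Submodule.iSup_induction _ (motive := p) hx h1 h0 hadd

/-- homogeneous elements of nonzero degree are nilpotent -/
theorem nil_of_egs {h z : L} (hs : Spl k h) {j : ℤ} (hj : j ≠ 0) (hz : z ∈ egs k h j) :
    Nil k z := by
  obtain ⟨M, hM⟩ := egs_fin k h
  have key : ∀ (n : ℕ) (i : ℤ) (v : L), v ∈ egs k h i →
      ((LieAlgebra.ad k L z) ^ n) v ∈ egs k h (n * j + i) := by
    intro n
    induction n with
    | zero => intro i v hv; simpa using hv
    | succ n ih =>
      intro i v hv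
      rw [pow_succ', Module.End.mul_apply, LieAlgebra.ad_apply]
      have := egs_lie hz (ih i v hv)
      have e : ((n + 1 : ℕ) : ℤ) * j + i = j + (n * j + i) := by push_cast; ring
      rw [e]
      exact this
  refine ⟨2 * M, LinearMap.ext fun v => ?_⟩
  rw [LinearMap.zero_apply]
  refine spl_ind hs (p := fun v => ((LieAlgebra.ad k L z) ^ (2 * M)) v = 0) (map_zero _)
    (fun x y hx hy => by rw [map_add, hx, hy, add_zero]) (fun i v hv => ?_) v
  by_contra hne
  have h1 : egs k h i ≠ ⊥ := by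
    intro h0
    rw [h0, Submodule.mem_bot] at hv
    rw [hv, map_zero] at hne
    exact hne rfl
  have h2 : egs k h ((2 * M : ℕ) * j + i) ≠ ⊥ := by
    intro h0
    have := key (2 * M) i v hv
    rw [h0, Submodule.mem_bot] at this
    exact hne this
  have h3 := abs_lt.1 (hM i h1)
  have h4 := abs_lt.1 (hM _ h2)
  push_cast at h4
  rcases lt_or_gt_of_ne hj with hj | hj
  · nlinarith
  · nlinarith

variable {h x y : L}

theorem x_mem (tr : IsSl2Triple h x y) : x ∈ egs k h 2 := by
  rw [mem_egs, tr.lie_h_e_nsmul]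
  push_cast
  rw [two_smul, two_smul]

theorem y_mem (tr : IsSl2Triple h x y) : y ∈ egs k h (-2) := by
  rw [mem_egs, tr.lie_h_f_nsmul]
  push_cast
  rw [neg_smul, two_smul, two_smul]

/-- a triple of `L` acts as a triple of nilpotents -/
theorem tri_of (tr : IsSl2Triple h x y) (hs : Spl k h) :
    Tri (LieAlgebra.ad k L x) (LieAlgebra.ad k L y) (LieAlgebra.ad k L h) where
  xy := LinearMap.ext fun v => by
    show ⁅x, ⁅y, v⁆⁆ - ⁅y, ⁅x, v⁆⁆ = ⁅h, v⁆
    rw [← lie_lie, tr.lie_e_f]
  hx := LinearMap.ext fun v => by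
    have := x_mem (k := k) tr
    rw [mem_egs] at this
    show ⁅h, ⁅x, v⁆⁆ - ⁅x, ⁅h, v⁆⁆ = (2 : k) • ⁅x, v⁆
    rw [← lie_lie, this, smul_lie]
    norm_num
  hy := LinearMap.ext fun v => by
    have := y_mem (k := k) tr
    rw [mem_egs] at this
    show ⁅h, ⁅y, v⁆⁆ - ⁅y, ⁅h, v⁆⁆ = -((2 : k) • ⁅y, v⁆)
    rw [← lie_lie, this, smul_lie]
    push_cast
    rw [neg_smul]
  nx := nil_of_egs hs two_ne_zero (x_mem tr)
  ny := nil_of_egs hs (by norm_num) (y_mem tr)

/-- **[RP-P1], `aut`**: the torus element `a(a)` of a triple is a product of four exponentials. -/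
noncomputable def ta (k : Type) [Field k] {L : Type} [LieRing L] [LieAlgebra k L] (x y : L) (a : k) :
    Module.End k L :=
  eu k ((a - 1) • x) * eu k y * eu k ((a⁻¹ - 1) • x) * eu k (-(a • y))

theorem ta_apply (tr : IsSl2Triple h x y) (hs : Spl k h) {a : k} (ha : a ≠ 0) {i : ℤ} {v : L}
    (hv : v ∈ egs k h i) : ta k x y a v = a ^ i • v := by
  have := (tri_of (k := k) tr hs).four ha (i := i) (v := v) (mem_egs.1 hv)
  rw [← this]
  unfold ta eu
  rw [map_smul, map_smul, map_neg, map_smul]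

/-- the same torus element from the rescaled triple -/
theorem ta_scale (tr : IsSl2Triple h x y) (hs : Spl k h) {a : k} (ha : a ≠ 0) {t : k}
    (ht : t ≠ 0) : ta k (t⁻¹ • x) (t • y) a = ta k x y a := by
  refine LinearMap.ext fun v => ?_
  refine spl_ind hs (p := fun v => ta k (t⁻¹ • x) (t • y) a v = ta k x y a v) (by simp)
    (fun x y hx hy => by rw [map_add, map_add, hx, hy]) (fun i v hv => ?_) v
  rw [ta_apply tr hs ha hv]
  have := ((tri_of (k := k) tr hs).scale ht).four ha (i := i) (v := v) (mem_egs.1 hv)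
  rw [← this]
  unfold ta eu
  simp only [map_smul, map_neg]

end alg

end Vale.Agent.P092.H237.Rp
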