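import Vale.Agent.P092.H213.Rp.Defs
import Mathlib.LinearAlgebra.Dual.Lemmas
import Mathlib.RingTheory.Nilpotent.Exp
import Mathlib.Data.Nat.Choose.Sum
import Mathlib.LinearAlgebra.Eigenspace.Zero

/-!
P092, project RP, block [RP-P5] (helper237), part 1: the exponential of a nilpotent endomorphism.
-/

set_option linter.all false

open Module Finset

namespace Vale.Agent.P092.H237.Rp

open Vale.Agent.P092.H213.Rp

variable {k V : Type} [Field k] [AddCommGroup V] [Module k V] [Module.Finite k V]

theorem pow_eq_zero {X : Module.End k V} (hX : IsNilpotent X) {N : ℕ} (hN : finrank k V ≤ N) :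
    X ^ N = 0 := by
  have h := IsNilpotent.charpoly_eq_X_pow_finrank hX
  have h2 := LinearMap.aeval_self_charpoly X
  rw [h] at h2
  simp only [map_pow, Polynomial.aeval_X] at h2
  exact pow_eq_zero_of_le hN h2

theorem ex_eq {X : Module.End k V} (hX : IsNilpotent X) {N : ℕ} (hN : finrank k V ≤ N) :
    ex X = ∑ i ∈ range N, ((i.factorial : k)⁻¹) • X ^ i := by
  have key : ∀ M, finrank k V ≤ M → ∑ i ∈ range M, ((i.factorial : k)⁻¹) • X ^ i =
      ∑ i ∈ range (finrank k V), ((i.factorial : k)⁻¹) • X ^ i := by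
    intro M hM
    induction M, hM using Nat.le_induction with
    | base => rfl
    | succ M hM ih => rw [sum_range_succ, ih, pow_eq_zero hX hM, smul_zero, add_zero]
  unfold ex
  rw [key _ (Nat.le_succ _), key _ hN]

theorem ex_apply {X : Module.End k V} (hX : IsNilpotent X) {N : ℕ} (hN : finrank k V ≤ N) (v : V) :
    ex X v = ∑ i ∈ range N, ((i.factorial : k)⁻¹) • (X ^ i) v := by
  rw [ex_eq hX hN, LinearMap.sum_apply]
  simp

theorem nil_smul {X : Module.End k V} (hX : IsNilpotent X) (c : k) : IsNilpotent (c • X) := by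
  obtain ⟨N, hN⟩ := hX
  exact ⟨N, by rw [smul_pow, hN, smul_zero]⟩

theorem ex_add [CharZero k] {X Y : Module.End k V} (hX : IsNilpotent X) (hY : IsNilpotent Y)
    (hXY : X * Y = Y * X) : ex (X + Y) = ex X * ex Y := by
  letI : Algebra ℚ (Module.End k V) := Algebra.compHom _ (algebraMap ℚ k)
  have key : ∀ Z : Module.End k V, IsNilpotent Z → ex Z = IsNilpotent.exp Z := by
    intro Z hZ
    rw [ex_eq hZ le_rfl, IsNilpotent.exp_eq_sum (pow_eq_zero hZ le_rfl)]
    refine sum_congr rfl fun i _ => ?_
    have : ((i.factorial : ℚ)⁻¹) • Z ^ i = (algebraMap ℚ k ((i.factorial : ℚ)⁻¹)) • Z ^ i := by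
      rw [Algebra.smul_def, Algebra.smul_def]; rfl
    rw [this]
    simp
  have hc : Commute X Y := hXY
  rw [key _ (hc.isNilpotent_add hX hY), key _ hX, key _ hY,
    IsNilpotent.exp_add_of_commute hc hX hY]

theorem ex_zero : ex (0 : Module.End k V) = 1 := by
  rw [ex_eq (IsNilpotent.zero) (N := finrank k V + 1) (Nat.le_succ _), sum_range_succ']
  simp

theorem ex_smul_add [CharZero k] {X : Module.End k V} (hX : IsNilpotent X) (s t : k) :
    ex ((s + t) • X) = ex (s • X) * ex (t • X) := by
  rw [add_smul, ex_add (nil_smul hX s) (nil_smul hX t)]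
  rw [smul_mul_smul_comm, smul_mul_smul_comm, mul_comm s t]

theorem ex_neg_mul [CharZero k] {X : Module.End k V} (hX : IsNilpotent X) :
    ex (-X) * ex X = 1 := by
  rw [← ex_add hX.neg hX (by rw [neg_mul, mul_neg]), neg_add_cancel, ex_zero]

theorem ex_mul_neg [CharZero k] {X : Module.End k V} (hX : IsNilpotent X) :
    ex X * ex (-X) = 1 := by
  rw [← ex_add hX hX.neg (by rw [neg_mul, mul_neg]), add_neg_cancel, ex_zero]

/-- conjugation -/
theorem mul_ex {T X X' : Module.End k V} (h : T * X = X' * T) : T * ex X = ex X' * T := by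
  unfold ex
  rw [mul_sum, sum_mul]
  refine sum_congr rfl fun i hi => ?_
  rw [mul_smul_comm, smul_mul_assoc]
  congr 1
  clear hi
  induction i with
  | zero => simp
  | succ i ih => rw [pow_succ, ← mul_assoc, ih, mul_assoc, h, ← mul_assoc, ← pow_succ]

/-- A polynomial with values in `V` which vanishes outside a finite set vanishes. -/
theorem coeff_zero [Infinite k] {N : ℕ} (c : ℕ → V) (S : Set k) (hS : S.Finite)
    (h : ∀ z, z ∉ S → ∑ l ∈ range N, z ^ l • c l = 0) {l : ℕ} (hl : l < N) : c l = 0 := by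
  rw [← Module.forall_dual_apply_eq_zero_iff k]
  intro φ
  set P : Polynomial k := ∑ l ∈ range N, Polynomial.C (φ (c l)) * Polynomial.X ^ l with hP
  have h0 : P = 0 := by
    refine Polynomial.eq_zero_of_infinite_isRoot P ?_
    refine Set.Infinite.mono (s := Sᶜ) ?_ hS.infinite_compl
    intro z hz
    have h1 := congrArg φ (h z hz)
    rw [map_sum, map_zero] at h1
    show Polynomial.IsRoot P z
    rw [Polynomial.IsRoot, hP, Polynomial.eval_finset_sum, ← h1]
    refine sum_congr rfl fun i _ => ?_
    rw [Polynomial.eval_mul, Polynomial.eval_C, Polynomial.eval_pow, Polynomial.eval_X, map_smul,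
      smul_eq_mul, mul_comm]
  have h2 := congrArg (fun p => Polynomial.coeff p l) h0
  simp only [hP, Polynomial.finset_sum_coeff, Polynomial.coeff_C_mul, Polynomial.coeff_X_pow,
    Polynomial.coeff_zero] at h2
  simpa [hl] using h2

end Vale.Agent.P092.H237.Rp
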