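import Vale.Agent.P092.H237.Rp.Six
import Vale.Agent.P092.H821.Rp.Hmg
import Vale.Agent.P092.H268.Rp.Spl
import Vale.Agent.P092.H144.Rp.Span

/-!
P092, project RP, block [RP-P5] (helper237), part 5: torus elements in the group, the Howe–Moore
property, open subgroups.
-/

set_option linter.all false

open Filter Topology Module

namespace Vale.Agent.P092.H237.Rp

open Vale.Agent.P092.H213.Rp
open Vale.Agent.P092.H933 (Len)
open Vale.Agent.P092.H15 (Ctr HMG)
open Vale.Agent.P092.H821.Rp (Jm Gen)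

section aut

variable {k : Type} [NontriviallyNormedField k] [CharZero k] {L : Type} [LieRing L]
  [LieAlgebra k L] {n : ℕ} {b : Basis (Fin n) k L} {G : Type} [Group G] [TopologicalSpace G]
  {ρ : G →* Module.End k L}

theorem isKilling (hs : LieAlgebra.IsSimple k L) (b : Basis (Fin n) k L) :
    LieAlgebra.IsKilling k L := by
  haveI : Module.Finite k L := Module.Finite.of_basis b
  haveI := hs
  infer_instance

theorem full_mul (hfull : ∀ x : L, Nil k x → ∃ g, ρ g = eu k x) {h x y : L}
    (tr : IsSl2Triple h x y) [Module.Finite k L] (t : k) : ∃ a : G, ρ a = ta k x y t := by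
  have hx : Nil k x := H268.Rp.nil_e tr
  have hy : Nil k y := H268.Rp.nil_f tr
  obtain ⟨g1, h1⟩ := hfull _ (H821.Rp.nil_smul hx (t - 1))
  obtain ⟨g2, h2⟩ := hfull _ hy
  obtain ⟨g3, h3⟩ := hfull _ (H821.Rp.nil_smul hx (t⁻¹ - 1))
  obtain ⟨g4, h4⟩ := hfull _ (H821.Rp.nil_smul hy (-t))
  refine ⟨g1 * g2 * g3 * g4, ?_⟩
  rw [map_mul, map_mul, map_mul, h1, h2, h3, h4, neg_smul]
  rfl

/-- **[RP-P1], `aut` in the group** -/
theorem aut_full (hfull : ∀ x : L, Nil k x → ∃ g, ρ g = eu k x) [Module.Finite k L] {h x y : L}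
    (tr : IsSl2Triple h x y) (t : kˣ) :
    ∃ a : G, ∀ (i : ℤ), ∀ z ∈ egs k h i, ρ a z = ((t : k) ^ i) • z := by
  obtain ⟨a, ha⟩ := full_mul (ρ := ρ) hfull tr (t : k)
  exact ⟨a, fun i z hz => by rw [ha, ta_apply tr (H268.Rp.spl tr) t.ne_zero hz]⟩

/-- **[RP-P1], `aut` in the group** -/
theorem aut (hρ : RP b ρ) (h x y : L) (tr : IsSl2Triple h x y) (t : kˣ) :
    ∃ a : G, ∀ (i : ℤ), ∀ z ∈ egs k h i, ρ a z = ((t : k) ^ i) • z := by
  haveI : Module.Finite k L := Module.Finite.of_basis b
  exact aut_full hρ.full tr t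

/-- the same, exponent in the units (helper720's letters) -/
theorem aut_unit (hρ : RP b ρ) (h x y : L) (tr : IsSl2Triple h x y) (t : kˣ) :
    ∃ a : G, ∀ (i : ℤ), ∀ z ∈ egs k h i, ρ a z = ((t ^ i : kˣ) : k) • z := by
  obtain ⟨a, ha⟩ := aut hρ h x y tr t
  exact ⟨a, fun i z hz => by rw [ha i z hz, Units.val_zpow_eq_zpow_val]⟩

/-- the input of helper821 -/
theorem jmK (hs : LieAlgebra.IsSimple k L) (b : Basis (Fin n) k L) : Jm k L := by
  haveI : Module.Finite k L := Module.Finite.of_basis b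
  haveI := isKilling hs b
  intro x hx0 hx
  obtain ⟨h, y, tr⟩ := H268.Rp.jm hx hx0
  have hs' : Spl k h := H268.Rp.spl tr
  exact ⟨h, y, tr.h_ne_zero, H268.Rp.nil_f tr, hs', fun t ht i z hz => six_apply tr hs' ht hz⟩

/-- **[RP-HMG]**, given the span of the nilpotents (P3) and the generation by opposite horospherical
groups (P4) -/
theorem hmg_of [ProperSpace k] (hρ : RP b ρ) (span : Submodule.span k {x : L | Nil k x} = ⊤)
    (gen : Gen k ρ) : HMG G :=
  H821.Rp.hmg_of hρ span (jmK hρ.simple b) gen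

/-- the nilpotents span (P3, helper144) -/
theorem span_top (hs : LieAlgebra.IsSimple k L) (iso : ∃ x : L, x ≠ 0 ∧ Nil k x)
    (b : Basis (Fin n) k L) : Submodule.span k {x : L | Nil k x} = ⊤ := by
  haveI : Module.Finite k L := Module.Finite.of_basis b
  haveI := isKilling hs b
  exact H144.Rp.span_nil hs iso (fun x hx hx0 => H268.Rp.jm hx hx0)
    fun h x y tr => H268.Rp.spl tr

/-- **[RP-HMG]**, given only P4 -/
theorem hmg [ProperSpace k] (hρ : RP b ρ) (gen : Gen k ρ) : HMG G :=
  hmg_of hρ (span_top hρ.simple hρ.iso b) gen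

end aut

section open_

variable {G : Type} [Group G] [TopologicalSpace G] [IsTopologicalGroup G]

/-- **P5**: in a group with `HMG` a proper open subgroup is compact. -/
theorem eq_top_of_hmg (h : HMG G) (W : Subgroup G) (hW : IsOpen (W : Set G))
    (hc : ¬ IsCompact (W : Set G)) : W = ⊤ := by
  classical
  have hcl : IsClosed (W : Set G) := W.isClosed_of_isOpen hW
  haveI hne : NeBot (cocompact G ⊓ 𝓟 (W : Set G)) := by
    rw [inf_principal_neBot_iff]
    intro S hS
    by_contra hemp
    rw [Set.not_nonempty_iff_eq_empty] at hemp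
    obtain ⟨K, hK, hKS⟩ := mem_cocompact.1 hS
    refine hc (hK.of_isClosed_subset hcl fun g hg => ?_)
    by_contra hgK
    have : g ∈ S ∩ (W : Set G) := ⟨hKS hgK, hg⟩
    rw [hemp] at this
    exact this
  set U : Ultrafilter G := Ultrafilter.of (cocompact G ⊓ 𝓟 (W : Set G)) with hU
  have hU1 : (U : Filter G) ≤ cocompact G := (Ultrafilter.of_le _).trans inf_le_left
  have hU2 : ∀ᶠ g in (U : Filter G), g ∈ W :=
    (Ultrafilter.of_le (cocompact G ⊓ 𝓟 (W : Set G))).trans inf_le_right (mem_principal_self _)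
  set f : G → ℝ := fun g => if g ∈ W then 0 else 1 with hf
  have hlen : Len f := by
    refine ⟨by simp [hf, W.one_mem], fun g => by simp [hf], fun g g' => ?_, ?_⟩
    · simp only [hf]
      by_cases h1 : g ∈ W
      · by_cases h2 : g' ∈ W
        · simp [h1, h2, W.mul_mem h1 h2]
        · simp [h1, h2, W.mul_mem_cancel_left h1]
      · by_cases h2 : g' ∈ W
        · simp [h1, h2, W.mul_mem_cancel_right h2]
        · simp only [h1, h2, if_false]
          split_ifs <;> norm_num
    · refine tendsto_const_nhds.congr' ?_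
      filter_upwards [hW.mem_nhds W.one_mem] with g hg
      simp [hf, show g ∈ W from hg]
  have key := h U hU1 f hlen fun g hg => by
    obtain ⟨γ, h1, h2⟩ := hg
    have h3 : ∀ᶠ b in (U : Filter G), b⁻¹ * γ b * b ∈ (W : Set G) :=
      h2 (hW.mem_nhds W.one_mem)
    have h4 : ∀ᶠ b in (U : Filter G), γ b ∈ (W : Set G) := by
      filter_upwards [h3, hU2] with b hb hb2
      have := W.mul_mem (W.mul_mem hb2 hb) (W.inv_mem hb2)
      have e : b * (b⁻¹ * γ b * b) * b⁻¹ = γ b := by group
      rwa [e] at this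
    have h5 : g ∈ (W : Set G) := hcl.mem_of_tendsto h1 h4
    simp [hf, show g ∈ W from h5]
  rw [eq_top_iff]
  intro g _
  by_contra hg
  have := key g
  simp [hf, hg] at this

end open_

end Vale.Agent.P092.H237.Rp
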