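import Vale.Agent.P092.H237.Rp.Tor

/-!
P092, project RP, block [RP-P5] (helper237), part 4: the torus element `n(t) n(1)⁻¹` as a product of
six exponentials.
-/

set_option linter.all false

open Module Finset

namespace Vale.Agent.P092.H237.Rp

open Vale.Agent.P092.H213.Rp

namespace Tri

variable {k V : Type} [Field k] [AddCommGroup V] [Module k V] [CharZero k] [Module.Finite k V]
  {X Y H : Module.End k V}

/-- an endomorphism which acts on the generating vectors of all strings by a Möbius map `ζ ↦ ζ/a²`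
acts as the torus element. -/
theorem of_gen (T : Tri X Y H) {a : k} (ha : a ≠ 0) {D : Module.End k V} (S : Set k)
    (hS : S.Finite) (h : ∀ (u : V) (m : ℕ), X u = 0 → H u = (m : k) • u → ∀ ζ, ζ ∉ S →
      D (ex (ζ • Y) u) = a ^ m • ex ((ζ / a ^ 2) • Y) u) {i : ℤ} {v : V}
    (hv : H v = (i : k) • v) : D v = a ^ i • v := by
  have hstr : ∀ (u : V) (m : ℕ), X u = 0 → H u = (m : k) • u → ∀ l : ℕ,
      D ((Y ^ l) u) = a ^ ((m : ℤ) - 2 * l) • (Y ^ l) u := by
    intro u m hx hu l
    rcases lt_or_ge m l with hlt | hle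
    · rw [T.top hx hu hlt, map_zero, smul_zero]
    have h2 : ∀ ζ : k, ζ ∉ S → ∑ l ∈ range (m + 1), ζ ^ l •
        (D ((l.factorial : k)⁻¹ • (Y ^ l) u) -
          (a ^ m * (a ^ 2)⁻¹ ^ l) • ((l.factorial : k)⁻¹ • (Y ^ l) u)) = 0 := by
      intro ζ hζ
      have h := h u m hx hu ζ hζ
      rw [T.gen hx hu, T.gen hx hu, map_sum, smul_sum, ← sub_eq_zero, ← sum_sub_distrib] at h
      rw [← h]
      refine sum_congr rfl fun l _ => ?_
      rw [smul_sub, ← map_smul D]
      congr 1
      rw [smul_smul (a ^ m), smul_smul (ζ ^ l)]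
      congr 1
      rw [div_pow, inv_pow]
      ring
    haveI : Infinite k := Infinite.of_injective (Nat.cast : ℕ → k) Nat.cast_injective
    have h3 := coeff_zero _ _ hS h2 (l := l) (by omega)
    have h1 : ((l.factorial : ℕ) : k) ≠ 0 := by exact_mod_cast l.factorial_ne_zero
    rw [map_smul, smul_comm, ← smul_sub, smul_eq_zero] at h3
    rcases h3 with h3 | h3
    · exact absurd h3 (inv_ne_zero h1)
    · rw [sub_eq_zero.1 h3]
      congr 1
      rw [zpow_sub₀ ha, zpow_natCast, zpow_mul, div_eq_mul_inv]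
      congr 1
      rw [inv_pow]
      norm_cast
  obtain ⟨N, hN⟩ := T.nx
  have h := T.str N i v hv (by rw [hN]; rfl)
  clear hv
  induction h using Submodule.span_induction with
  | mem x hx =>
    obtain ⟨j, m, u, h1, h2, h3, rfl⟩ := hx
    rw [hstr u m h1 h2, h3]
  | zero => simp
  | add x y _ _ hx hy => rw [map_add, hx, hy, smul_add]
  | smul c x _ hx => rw [map_smul, hx, smul_comm]

/-- **`n(t) n(1)⁻¹`**: six exponentials. -/
theorem six (T : Tri X Y H) {t : k} (ht : t ≠ 0) {i : ℤ} {v : V} (hv : H v = (i : k) • v) :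
    (ex (t • X) * ex (-(t⁻¹ • Y)) * ex (t • X) * (ex (-X) * ex Y * ex (-X))) v = t ^ i • v := by
  refine T.of_gen ht {0, 1, t} (by simp) ?_ hv
  intro u m hx hu z hz
  simp only [Set.mem_insert_iff, Set.mem_singleton_iff, not_or] at hz
  obtain ⟨hz0, hz1, hzt⟩ := hz
  have y1 : ∀ s t : k, ex (s • Y) (ex (t • Y) u) = ex ((s + t) • Y) u := by
    intro s t
    rw [ex_smul_add T.ny, Module.End.mul_apply]
  have a1 : (1 : k) + (-1) * z ≠ 0 := by
    intro h; exact hz1 (by linear_combination -h)
  have a2 : t - z ≠ 0 := sub_ne_zero.2 (Ne.symm hzt)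
  have a1' : (1 : k) - z ≠ 0 := by intro h; exact a1 (by linear_combination h)
  -- the first three factors
  have s1 : ex (-X) (ex (z • Y) u) = (1 - z) ^ m • ex ((z / (1 - z)) • Y) u := by
    have := T.mob hx hu (-1) z a1
    rw [neg_smul, one_smul] at this
    rw [this]
    have e : (1 : k) + (-1) * z = 1 - z := by ring
    rw [e]
  have s2 : ex Y (ex ((z / (1 - z)) • Y) u) = ex ((1 / (1 - z)) • Y) u := by
    have := y1 1 (z / (1 - z))
    rw [one_smul] at this
    rw [this]
    congr 3
    field_simp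
    ring
  have s3 : ex ((t - 1) • X) (ex ((1 / (1 - z)) • Y) u) =
      ((t - z) / (1 - z)) ^ m • ex ((1 / (t - z)) • Y) u := by
    have e : 1 + (t - 1) * (1 / (1 - z)) = (t - z) / (1 - z) := by
      field_simp
      ring
    have := T.mob hx hu (t - 1) (1 / (1 - z)) (by rw [e]; exact div_ne_zero a2 a1')
    rw [this, e]
    congr 4
    field_simp
  have s4 : ex (-(t⁻¹ • Y)) (ex ((1 / (t - z)) • Y) u) = ex ((z / (t * (t - z))) • Y) u := by
    rw [← neg_smul, y1]
    congr 3
    field_simp
    ring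
  have s5 : ex (t • X) (ex ((z / (t * (t - z))) • Y) u) =
      (t / (t - z)) ^ m • ex ((z / t ^ 2) • Y) u := by
    have e : 1 + t * (z / (t * (t - z))) = t / (t - z) := by
      field_simp
      ring
    have := T.mob hx hu t (z / (t * (t - z))) (by rw [e]; exact div_ne_zero ht a2)
    rw [this, e]
    congr 4
    field_simp
  have s6 : ex (t • X) * ex (-X) = ex ((t - 1) • X) := by
    have := ex_smul_add T.nx t (-1)
    rw [neg_smul, one_smul] at this
    rw [← this, sub_eq_add_neg]
  have s7 : ex (t • X) * ex (-(t⁻¹ • Y)) * ex (t • X) * (ex (-X) * ex Y * ex (-X)) =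
      ex (t • X) * ex (-(t⁻¹ • Y)) * ex ((t - 1) • X) * ex Y * ex (-X) := by
    rw [← s6]; simp only [mul_assoc]
  rw [s7]
  simp only [Module.End.mul_apply]
  rw [s1, map_smul, map_smul, map_smul, map_smul, s2, s3, map_smul, map_smul, s4, s5, smul_smul,
    smul_smul, ← mul_pow, ← mul_pow]
  congr 2
  field_simp

end Tri

variable {k L : Type} [Field k] [CharZero k] [LieRing L] [LieAlgebra k L] [Module.Finite k L]
  {h x y : L}

theorem six_apply (tr : IsSl2Triple h x y) (hs : Spl k h) {t : k} (ht : t ≠ 0) {i : ℤ} {v : L}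
    (hv : v ∈ egs k h i) :
    (eu k (t • x) * eu k (-(t⁻¹ • y)) * eu k (t • x) * (eu k (-x) * eu k y * eu k (-x))) v =
      t ^ i • v := by
  have := (tri_of (k := k) tr hs).six ht (i := i) (v := v) (mem_egs.1 hv)
  rw [← this]
  unfold eu
  simp only [map_smul, map_neg]

end Vale.Agent.P092.H237.Rp
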