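import Vale.Agent.P092.H237.Rp.Ex

/-!
P092, project RP, block [RP-P5] (helper237), part 2: strings of `sl_2` and the torus element as a
product of four exponentials.
-/

set_option linter.all false

open Module Finset

namespace Vale.Agent.P092.H237.Rp

open Vale.Agent.P092.H213.Rp

variable {k V : Type} [Field k] [AddCommGroup V] [Module k V]

/-- the `sl_2`-relations for nilpotent endomorphisms -/
structure Tri (X Y H : Module.End k V) : Prop where
  xy : X * Y - Y * X = H
  hx : H * X - X * H = (2 : k) • X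
  hy : H * Y - Y * H = -((2 : k) • Y)
  nx : IsNilpotent X
  ny : IsNilpotent Y

namespace Tri

variable {X Y H : Module.End k V}

theorem scale (T : Tri X Y H) {t : k} (ht : t ≠ 0) : Tri (t⁻¹ • X) (t • Y) H where
  xy := by
    rw [smul_mul_smul_comm, smul_mul_smul_comm, inv_mul_cancel₀ ht, mul_inv_cancel₀ ht, one_smul,
      one_smul, T.xy]
  hx := by
    rw [mul_smul_comm, smul_mul_assoc, ← smul_sub, T.hx, smul_comm]
  hy := by
    rw [mul_smul_comm, smul_mul_assoc, ← smul_sub, T.hy, smul_neg, smul_comm]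
  nx := by obtain ⟨N, hN⟩ := T.nx; exact ⟨N, by rw [smul_pow, hN, smul_zero]⟩
  ny := by obtain ⟨N, hN⟩ := T.ny; exact ⟨N, by rw [smul_pow, hN, smul_zero]⟩

theorem hxv (T : Tri X Y H) {v : V} {μ : k} (hv : H v = μ • v) : H (X v) = (μ + 2) • X v := by
  have h := congrArg (fun A => A v) T.hx
  simp only [LinearMap.sub_apply, Module.End.mul_apply, LinearMap.smul_apply, hv, map_smul] at h
  rw [add_smul, ← h]; abel

theorem hyv (T : Tri X Y H) {v : V} {μ : k} (hv : H v = μ • v) : H (Y v) = (μ - 2) • Y v := by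
  have h := congrArg (fun A => A v) T.hy
  simp only [LinearMap.sub_apply, Module.End.mul_apply, LinearMap.smul_apply, LinearMap.neg_apply,
    hv, map_smul] at h
  rw [sub_smul, sub_eq_add_neg, ← h]; abel

theorem hxn (T : Tri X Y H) {v : V} {μ : k} (hv : H v = μ • v) (n : ℕ) :
    H ((X ^ n) v) = (μ + 2 * n) • (X ^ n) v := by
  induction n with
  | zero => simpa using hv
  | succ n ih =>
    rw [pow_succ', Module.End.mul_apply, T.hxv ih]
    congr 1; push_cast; ring

theorem hyn (T : Tri X Y H) {v : V} {μ : k} (hv : H v = μ • v) (n : ℕ) :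
    H ((Y ^ n) v) = (μ - 2 * n) • (Y ^ n) v := by
  induction n with
  | zero => simpa using hv
  | succ n ih =>
    rw [pow_succ', Module.End.mul_apply, T.hyv ih]
    congr 1; push_cast; ring

/-- `X Y^(j+1) u` for a primitive vector -/
theorem xyn (T : Tri X Y H) {u : V} {μ : k} (hu : H u = μ • u) (hx : X u = 0) (j : ℕ) :
    X ((Y ^ (j + 1)) u) = ((j + 1 : k) * (μ - j)) • (Y ^ j) u := by
  have e : ∀ v : V, X (Y v) = Y (X v) + H v := by
    intro v
    have h := congrArg (fun A => A v) T.xy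
    simp only [LinearMap.sub_apply, Module.End.mul_apply] at h
    rw [← h]; abel
  induction j with
  | zero =>
    rw [zero_add, pow_one, e, hx, map_zero, zero_add, hu]
    simp
  | succ j ih =>
    rw [pow_succ', Module.End.mul_apply, e, ih, map_smul, T.hyn hu,
      ← Module.End.mul_apply, ← pow_succ', ← add_smul]
    congr 1; push_cast; ring

/-- `X^(n+1) Y v = (n+1)(H-n) X^n v` if `X^(n+1) v = 0` -/
theorem xny (T : Tri X Y H) {v : V} {μ : k} (hv : H v = μ • v) (n : ℕ) :
    (X ^ (n + 1)) (Y v) = Y ((X ^ (n + 1)) v) + ((n + 1 : k) * (μ + n)) • (X ^ n) v := by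
  have e : ∀ v : V, X (Y v) = Y (X v) + H v := by
    intro v
    have h := congrArg (fun A => A v) T.xy
    simp only [LinearMap.sub_apply, Module.End.mul_apply] at h
    rw [← h]; abel
  induction n with
  | zero => rw [zero_add, pow_one, e, hv]; simp
  | succ n ih =>
    rw [pow_succ', Module.End.mul_apply, ih, map_add, e, map_smul, T.hxn hv, ← Module.End.mul_apply X,
      ← pow_succ', ← Module.End.mul_apply X, ← pow_succ', add_assoc, ← add_smul]
    congr 2; push_cast; ring

variable [CharZero k]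

/-- weights of vectors in `im X^n ∩ ker X` -/
theorem weight (T : Tri X Y H) {w : V} {m : ℤ} (hw : H w = (m : k) • w) (hxw : X w = 0)
    (n : ℕ) (v : V) (hv : H v = ((m - 2 * n : ℤ) : k) • v) (hvw : (X ^ n) v = w) (hm : m < n) : w = 0 := by
  have key : ∀ d : ℕ, ∀ v : V, H v = ((m - 2 * (n + d) : ℤ) : k) • v → (X ^ (n + d)) v = w →
      ∃ v' : V, H v' = ((m - 2 * (n + (d + 1)) : ℤ) : k) • v' ∧ (X ^ (n + (d + 1))) v' = w := by
    intro d v hv hvw
    have h1 := T.xny hv (n + d)
    have h2 : (X ^ (n + d + 1)) v = 0 := by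
      rw [pow_succ', Module.End.mul_apply, hvw, hxw]
    rw [h2, map_zero, zero_add, hvw] at h1
    have h3 : (((n + d : ℕ) + 1 : k) * (((m - 2 * (n + d) : ℤ) : k) + ((n + d : ℕ) : k))) =
        ((((n + d : ℕ) : ℤ) + 1) * (m - ((n + d : ℕ) : ℤ)) : ℤ) := by push_cast; ring
    have h4 : (((((n + d : ℕ) : ℤ) + 1) * (m - ((n + d : ℕ) : ℤ)) : ℤ) : k) ≠ 0 := by
      rw [Int.cast_ne_zero]
      refine mul_ne_zero (by positivity) ?_
      have : m < ((n + d : ℕ) : ℤ) := by push_cast; omega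
      omega
    rw [h3] at h1
    refine ⟨((((((n + d : ℕ) : ℤ) + 1) * (m - ((n + d : ℕ) : ℤ)) : ℤ) : k))⁻¹ • Y v, ?_, ?_⟩
    · rw [map_smul, T.hyv hv, smul_comm]
      congr 1
      push_cast; ring
    · rw [map_smul, ← add_assoc, h1, smul_smul, inv_mul_cancel₀ h4, one_smul]
  have key2 : ∀ d : ℕ, ∃ v' : V, H v' = ((m - 2 * (n + d) : ℤ) : k) • v' ∧ (X ^ (n + d)) v' = w := by
    intro d
    induction d with
    | zero => exact ⟨v, by simpa using hv, by simpa using hvw⟩
    | succ d ih =>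
      obtain ⟨v', h1, h2⟩ := ih
      obtain ⟨v'', h3, h4⟩ := key d v' h1 h2
      exact ⟨v'', by push_cast at h3 ⊢; exact h3, h4⟩
  obtain ⟨N, hN⟩ := T.nx
  obtain ⟨v', -, h⟩ := key2 N
  rw [← h, pow_add, hN, mul_zero]; rfl

/-- every weight vector is a combination of strings -/
theorem str (T : Tri X Y H) (N : ℕ) : ∀ (i : ℤ) (v : V), H v = (i : k) • v → (X ^ N) v = 0 →
    v ∈ Submodule.span k {x : V | ∃ (j m : ℕ) (u : V), X u = 0 ∧ H u = (m : k) • u ∧
      (m : ℤ) - 2 * j = i ∧ x = (Y ^ j) u} := by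
  induction N with
  | zero => intro i v _ hv; simp only [pow_zero, Module.End.one_apply] at hv; rw [hv]; exact zero_mem _
  | succ N ih =>
    intro i v hv hN
    set w : V := (X ^ N) v with hw
    have hxw : X w = 0 := by rw [hw, ← Module.End.mul_apply, ← pow_succ', hN]
    have hHw : H w = ((i + 2 * N : ℤ) : k) • w := by
      rw [hw, T.hxn hv]; push_cast; rfl
    rcases lt_or_ge (i + 2 * N) (N : ℤ) with hlt | hge
    · have h0 : w = 0 := T.weight hHw hxw N v (by rw [hv]; congr 1; push_cast; ring) rfl hlt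
      exact ih i v hv h0
    · obtain ⟨m, hm⟩ : ∃ m : ℕ, (m : ℤ) = i + 2 * N := ⟨(i + 2 * N).toNat, by omega⟩
      have hmN : N ≤ m := by omega
      rw [← hm] at hHw
      push_cast at hHw
      -- `X^N Y^N w = c w`
      have hc : ∀ n : ℕ, n ≤ m → ∃ c : k, c ≠ 0 ∧ (X ^ n) ((Y ^ n) w) = c • w := by
        intro n hn
        induction n with
        | zero => exact ⟨1, one_ne_zero, by simp⟩
        | succ n ihn =>
          obtain ⟨c, hc0, hc⟩ := ihn (by omega)
          refine ⟨((n + 1 : k) * (m - n)) * c, ?_, ?_⟩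
          · refine mul_ne_zero (mul_ne_zero ?_ ?_) hc0
            · exact_mod_cast Nat.succ_ne_zero n
            · rw [sub_ne_zero]; exact_mod_cast (by omega : m ≠ n)
          · rw [pow_succ, Module.End.mul_apply, T.xyn hHw hxw, map_smul, hc, smul_smul]
      obtain ⟨c, hc0, hc⟩ := hc N hmN
      have hYw : H ((Y ^ N) w) = (i : k) • (Y ^ N) w := by
        rw [T.hyn hHw]
        congr 1
        have : ((m : ℤ) : k) = ((i + 2 * N : ℤ) : k) := by rw [hm]
        push_cast at this
        rw [this]; ring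
      have h1 : v - c⁻¹ • (Y ^ N) w ∈ Submodule.span k {x : V | ∃ (j m : ℕ) (u : V), X u = 0 ∧
          H u = (m : k) • u ∧ (m : ℤ) - 2 * j = i ∧ x = (Y ^ j) u} := by
        refine ih i _ ?_ ?_
        · rw [map_sub, map_smul, hv, hYw, smul_sub, smul_comm]
        · rw [map_sub, map_smul, hc, smul_smul, inv_mul_cancel₀ hc0, one_smul, ← hw, sub_self]
      have h2 : (Y ^ N) w ∈ Submodule.span k {x : V | ∃ (j m : ℕ) (u : V), X u = 0 ∧
          H u = (m : k) • u ∧ (m : ℤ) - 2 * j = i ∧ x = (Y ^ j) u} :=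
        Submodule.subset_span ⟨N, m, w, hxw, hHw, by omega, rfl⟩
      have := Submodule.add_mem _ h1 (Submodule.smul_mem _ c⁻¹ h2)
      rwa [sub_add_cancel] at this

/-- the string of a primitive vector ends -/
theorem top (T : Tri X Y H) {u : V} {m : ℕ} (hx : X u = 0) (hu : H u = (m : k) • u) {l : ℕ}
    (hl : m < l) : (Y ^ l) u = 0 := by
  have h1 : (Y ^ (m + 1)) u = 0 := by
    refine T.weight (m := (m : ℤ) - 2 * (m + 1)) (w := (Y ^ (m + 1)) u) ?_ ?_ 0 ((Y ^ (m + 1)) u)
      ?_ (by simp) (by push_cast; omega)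
    · rw [T.hyn hu]; congr 1; push_cast; ring
    · rw [T.xyn hu hx]; simp
    · rw [T.hyn hu]; congr 1; push_cast; ring
  obtain ⟨d, rfl⟩ := Nat.exists_eq_add_of_le (Nat.succ_le_of_lt hl)
  rw [Nat.succ_eq_add_one, add_comm, pow_add, Module.End.mul_apply, h1, map_zero]

variable [Module.Finite k V]

/-- `exp (z Y) u` as a polynomial -/
theorem gen (T : Tri X Y H) {u : V} {m : ℕ} (hx : X u = 0) (hu : H u = (m : k) • u) (z : k) :
    ex (z • Y) u = ∑ l ∈ range (m + 1), z ^ l • ((l.factorial : k)⁻¹ • (Y ^ l) u) := by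
  rw [ex_apply (nil_smul T.ny z) (N := finrank k V + (m + 1)) (by omega),
    ← sum_subset (s₁ := range (m + 1)) (by intro x; simp only [mem_range]; omega)]
  · refine sum_congr rfl fun l _ => ?_
    rw [smul_pow, LinearMap.smul_apply, smul_comm]
  · intro l _ hl
    rw [mem_range, not_lt] at hl
    rw [smul_pow, LinearMap.smul_apply, T.top hx hu (by omega), smul_zero, smul_zero]

theorem xv (T : Tri X Y H) {u : V} {m : ℕ} (hx : X u = 0) (hu : H u = (m : k) • u) (l : ℕ) :
    X ((((l + 1).factorial : k))⁻¹ • (Y ^ (l + 1)) u) =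
      ((m : k) - l) • ((l.factorial : k)⁻¹ • (Y ^ l) u) := by
  rw [map_smul, T.xyn hu hx, smul_smul, smul_smul]
  congr 1
  have h1 : ((l.factorial : ℕ) : k) ≠ 0 := by exact_mod_cast l.factorial_ne_zero
  have h2 : ((l : k) + 1) ≠ 0 := by exact_mod_cast Nat.succ_ne_zero l
  rw [Nat.factorial_succ]
  push_cast
  field_simp

theorem xpow (T : Tri X Y H) {u : V} {m : ℕ} (hx : X u = 0) (hu : H u = (m : k) • u) (z : k)
    (i : ℕ) : (X ^ i) (ex (z • Y) u) = (i.factorial : k) • ∑ l ∈ range (m + 1),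
      (((m - l).choose i : k) * z ^ (l + i)) • ((l.factorial : k)⁻¹ • (Y ^ l) u) := by
  induction i with
  | zero =>
    rw [T.gen hx hu]
    simp
  | succ i ih =>
    rw [pow_succ', Module.End.mul_apply, ih, map_smul, map_sum, Nat.factorial_succ, mul_comm,
      Nat.cast_mul, ← smul_smul]
    congr 1
    rw [sum_range_succ', sum_range_succ]
    have e0 : X ((((m - 0).choose i : k) * z ^ (0 + i)) • (((Nat.factorial 0 : ℕ) : k)⁻¹ •
        (Y ^ 0) u)) = 0 := by
      rw [map_smul, map_smul, pow_zero, Module.End.one_apply, hx, smul_zero, smul_zero]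
    rw [e0, add_zero, Nat.sub_self, Nat.choose_zero_succ]
    simp only [Nat.cast_zero, zero_mul, zero_smul, add_zero]
    rw [smul_sum]
    refine sum_congr rfl fun l hl => ?_
    rw [mem_range] at hl
    rw [map_smul, T.xv hx hu]
    generalize ((l.factorial : k)⁻¹ • (Y ^ l) u) = x
    rw [smul_smul, smul_smul]
    congr 1
    obtain ⟨d, rfl⟩ : ∃ d, m = l + 1 + d := ⟨m - (l + 1), by omega⟩
    have h1 := Nat.add_one_mul_choose_eq d i
    have e1 : l + 1 + d - (l + 1) = d := by omega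
    have e2 : l + 1 + d - l = d + 1 := by omega
    rw [e1, e2]
    have h2 : ((d : k) + 1) * (d.choose i : k) = ((d + 1).choose (i + 1) : k) * (i + 1) := by
      exact_mod_cast h1
    push_cast
    calc (d.choose i : k) * z ^ (l + 1 + i) * (l + 1 + d - l)
        = (((d : k) + 1) * (d.choose i : k)) * z ^ (l + 1 + i) := by ring
      _ = _ := by rw [h2]; ring

/-- `exp (c X)` on the generating vectors is the Möbius map -/
theorem mob (T : Tri X Y H) {u : V} {m : ℕ} (hx : X u = 0) (hu : H u = (m : k) • u) (c z : k)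
    (hq : 1 + c * z ≠ 0) :
    ex (c • X) (ex (z • Y) u) = (1 + c * z) ^ m • ex ((z / (1 + c * z)) • Y) u := by
  rw [ex_apply (nil_smul T.nx c) (N := finrank k V + (m + 1)) (by omega), T.gen hx hu (z / _)]
  have e1 : ∀ i : ℕ, ((i.factorial : k))⁻¹ • ((c • X) ^ i) (ex (z • Y) u) =
      ∑ l ∈ range (m + 1), (c ^ i * (((m - l).choose i : k) * z ^ (l + i))) •
        ((l.factorial : k)⁻¹ • (Y ^ l) u) := by
    intro i
    have h1 : ((i.factorial : ℕ) : k) ≠ 0 := by exact_mod_cast i.factorial_ne_zero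
    rw [smul_pow, LinearMap.smul_apply, T.xpow hx hu, smul_comm (c ^ i), smul_smul,
      inv_mul_cancel₀ h1, one_smul, smul_sum]
    refine sum_congr rfl fun l _ => ?_
    rw [smul_smul]
  rw [sum_congr rfl fun i _ => e1 i, sum_comm, smul_sum]
  refine sum_congr rfl fun l hl => ?_
  rw [mem_range] at hl
  rw [← sum_smul, smul_smul ((1 + c * z) ^ m)]
  congr 1
  have e2 : (1 + c * z) ^ (m - l) = ∑ i ∈ range (finrank k V + (m + 1)),
      (c * z) ^ i * ((m - l).choose i : k) := by
    rw [add_comm 1, add_pow, ← sum_subset (s₁ := range (m - l + 1))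
      (s₂ := range (finrank k V + (m + 1))) (by intro x; simp only [mem_range]; omega)]
    · refine sum_congr rfl fun i _ => by simp
    · intro i _ hi
      rw [mem_range, not_lt] at hi
      rw [Nat.choose_eq_zero_of_lt (by omega)]
      simp
  have e3 : (1 + c * z) ^ m * (z / (1 + c * z)) ^ l = z ^ l * (1 + c * z) ^ (m - l) := by
    obtain ⟨d, rfl⟩ := Nat.exists_eq_add_of_le (Nat.lt_succ_iff.1 hl)
    rw [Nat.add_sub_cancel_left, pow_add, div_pow]
    field_simp
  rw [e3, e2, mul_sum]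
  refine sum_congr rfl fun i _ => ?_
  rw [mul_pow, pow_add]; ring

/-- **The torus element is a product of four exponentials**: its action on strings. -/
theorem four_str (T : Tri X Y H) {a : k} (ha : a ≠ 0) {u : V} {m : ℕ} (hx : X u = 0)
    (hu : H u = (m : k) • u) (l : ℕ) :
    (ex ((a - 1) • X) * ex Y * ex ((a⁻¹ - 1) • X) * ex (-(a • Y))) ((Y ^ l) u) =
      a ^ ((m : ℤ) - 2 * l) • (Y ^ l) u := by
  set D : Module.End k V := ex ((a - 1) • X) * ex Y * ex ((a⁻¹ - 1) • X) * ex (-(a • Y)) with hD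
  rcases lt_or_ge m l with hlt | hle
  · rw [T.top hx hu hlt, map_zero, smul_zero]
  have key : ∀ ζ : k, 1 + (a⁻¹ - 1) * (ζ - a) ≠ 0 → D (ex (ζ • Y) u) = a ^ m • ex ((ζ / a ^ 2) • Y) u := by
    intro ζ hζ
    have y1 : ∀ s t : k, ex (s • Y) (ex (t • Y) u) = ex ((s + t) • Y) u := by
      intro s t
      rw [ex_smul_add T.ny, Module.End.mul_apply]
    rw [hD, Module.End.mul_apply, Module.End.mul_apply, Module.End.mul_apply, ← neg_smul, y1]
    have e1 : -a + ζ = ζ - a := by ring
    rw [e1, T.mob hx hu _ _ hζ, map_smul, map_smul]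
    have e2 : ex Y (ex (((ζ - a) / (1 + (a⁻¹ - 1) * (ζ - a))) • Y) u) =
        ex ((1 + (ζ - a) / (1 + (a⁻¹ - 1) * (ζ - a))) • Y) u := by
      rw [← y1, one_smul]
    have e3 : 1 + (ζ - a) / (1 + (a⁻¹ - 1) * (ζ - a)) =
        (ζ / a) / (1 + (a⁻¹ - 1) * (ζ - a)) := by
      rw [eq_div_iff hζ, add_mul, div_mul_cancel₀ _ hζ]
      field_simp
      ring
    have e4 : (1 + (a - 1) * ((ζ / a) / (1 + (a⁻¹ - 1) * (ζ - a)))) *
        (1 + (a⁻¹ - 1) * (ζ - a)) = a := by
      rw [add_mul, mul_assoc, div_mul_cancel₀ _ hζ]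
      field_simp
      ring
    have e5 : 1 + (a - 1) * ((ζ / a) / (1 + (a⁻¹ - 1) * (ζ - a))) ≠ 0 := by
      intro h
      rw [h, zero_mul] at e4
      exact ha e4.symm
    rw [e2, e3, T.mob hx hu _ _ e5, smul_smul, ← mul_pow, mul_comm (1 + (a⁻¹ - 1) * (ζ - a)), e4]
    congr 3
    rw [div_div, mul_comm (1 + (a⁻¹ - 1) * (ζ - a)), e4, div_div, sq]
  have h2 : ∀ ζ : k, ζ ∉ {ζ : k | 1 + (a⁻¹ - 1) * (ζ - a) = 0} → ∑ l ∈ range (m + 1), ζ ^ l •
      (D ((l.factorial : k)⁻¹ • (Y ^ l) u) -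
        (a ^ m * (a ^ 2)⁻¹ ^ l) • ((l.factorial : k)⁻¹ • (Y ^ l) u)) = 0 := by
    intro ζ hζ
    have h := key ζ hζ
    rw [T.gen hx hu, T.gen hx hu, map_sum, smul_sum, ← sub_eq_zero, ← sum_sub_distrib] at h
    rw [← h]
    refine sum_congr rfl fun l _ => ?_
    rw [smul_sub, ← map_smul D]
    congr 1
    rw [smul_smul (a ^ m), smul_smul (ζ ^ l)]
    congr 1
    rw [div_pow, inv_pow]
    ring
  have hfin : {ζ : k | 1 + (a⁻¹ - 1) * (ζ - a) = 0}.Finite := by
    refine Set.Subsingleton.finite ?_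
    intro x hx y hy
    simp only [Set.mem_setOf_eq] at hx hy
    have h0 : a⁻¹ - 1 ≠ 0 := by
      intro h; rw [h, zero_mul, add_zero] at hx; exact one_ne_zero hx
    refine mul_left_cancel₀ h0 ?_
    linear_combination hx - hy
  haveI : Infinite k := Infinite.of_injective (Nat.cast : ℕ → k) Nat.cast_injective
  have h3 := coeff_zero _ _ hfin h2 (l := l) (by omega)
  have h1 : ((l.factorial : ℕ) : k) ≠ 0 := by exact_mod_cast l.factorial_ne_zero
  rw [map_smul, smul_comm, ← smul_sub, smul_eq_zero] at h3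
  rcases h3 with h3 | h3
  · exact absurd h3 (inv_ne_zero h1)
  · rw [sub_eq_zero.1 h3]
    congr 1
    rw [zpow_sub₀ ha, zpow_natCast, zpow_mul, div_eq_mul_inv]
    congr 1
    rw [inv_pow]
    norm_cast

/-- **The torus element is a product of four exponentials.** -/
theorem four (T : Tri X Y H) {a : k} (ha : a ≠ 0) {i : ℤ} {v : V} (hv : H v = (i : k) • v) :
    (ex ((a - 1) • X) * ex Y * ex ((a⁻¹ - 1) • X) * ex (-(a • Y))) v = a ^ i • v := by
  obtain ⟨N, hN⟩ := T.nx
  have h := T.str N i v hv (by rw [hN]; rfl)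
  clear hv
  induction h using Submodule.span_induction with
  | mem x hx =>
    obtain ⟨j, m, u, h1, h2, h3, rfl⟩ := hx
    rw [T.four_str ha h1 h2, h3]
  | zero => simp
  | add x y _ _ hx hy => rw [map_add, hx, hy, smul_add]
  | smul c x _ hx => rw [map_smul, hx, smul_comm]

end Tri

end Vale.Agent.P092.H237.Rp
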